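import Vale.Agent.P281.H949.MFS.RkM
import Vale.Agent.P281.H368.MFS.Defs

/-! P281, theorem MFS: limits of kernels (rows M-RK and M-DG). -/

open scoped Manifold ContDiff Matrix Topology ComplexOrder
open Set Filter Vale.Agent.P272.K Vale.Agent.P281.H716 Vale.Agent.P299.D Vale.Agent.P299.H956
open Vale.Agent.P281.H368.MFS (IsSemiPos InKer jacI pull ConAt ConFib)

set_option linter.all false

noncomputable section

namespace Vale.Agent.P281.H949.MFS

/-! ### linear algebra -/

section lin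

variable {n : ℕ} {κ : Type*} [Fintype κ]

lemma finrank_ker (A : Matrix κ (Fin n) ℂ) :
    A.rank + Module.finrank ℂ (LinearMap.ker A.mulVecLin) = n := by
  have h := LinearMap.finrank_range_add_finrank_ker A.mulVecLin
  rw [Module.finrank_fin_fun] at h
  exact h

/-- the dimension of the kernel is upper semicontinuous -/
theorem ker_limit {α : Type*} [TopologicalSpace α] {z₀ : α} {A : α → Matrix κ (Fin n) ℂ}
    (hc : ∀ i j, ContinuousAt (fun z => A z i j) z₀) {q : ℕ}
    (hf : ∃ᶠ z in 𝓝 z₀, q ≤ Module.finrank ℂ (LinearMap.ker (A z).mulVecLin)) :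
    q ≤ Module.finrank ℂ (LinearMap.ker (A z₀).mulVecLin) := by
  have h1 : ∀ᶠ z in 𝓝 z₀, ((A z₀)ᴴ * A z₀).rank ≤ ((A z)ᴴ * A z).rank := by
    refine rank_lsc (θ := fun z => (A z)ᴴ * A z) (fun i j => ?_) le_rfl
    have h2 : (fun z => ((A z)ᴴ * A z) i j) = fun z => ∑ k, (starRingEnd ℂ) (A z k i) * A z k j := by
      funext z
      simp [Matrix.mul_apply, Matrix.conjTranspose_apply]
    rw [h2]
    refine tendsto_finsetSum _ fun k _ => ?_
    exact (Complex.continuous_conj.continuousAt.comp (hc k i)).mul (hc k j)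
  obtain ⟨z, hz, hz'⟩ := (hf.and_eventually h1).exists
  rw [Matrix.rank_conjTranspose_mul_self, Matrix.rank_conjTranspose_mul_self] at hz'
  have h3 := finrank_ker (A z)
  have h4 := finrank_ker (A z₀)
  omega

end lin

lemma inKer_iff {n : ℕ} {A : Matrix (Fin n) (Fin n) ℂ} {w : Cm n} : InKer A w ↔ Aᵀ *ᵥ w = 0 := by
  rw [funext_iff]
  refine forall_congr' fun j => ?_
  have h : (Aᵀ *ᵥ w) j = ∑ i, w i * A i j := by
    rw [Matrix.mulVec, dotProduct]
    exact Finset.sum_congr rfl fun i _ => by rw [Matrix.transpose_apply, mul_comm]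
  rw [h]; rfl

/-- the kernel of `A` is the image of `W` -/
lemma ker_eq_range {n p d : ℕ} (hn : n = p + d) {A : Matrix (Fin p) (Fin n) ℂ}
    {W : Matrix (Fin n) (Fin d) ℂ} (hA : Function.Surjective A.mulVec)
    (hW : Function.Injective W.mulVec) (hAW : A * W = 0) :
    LinearMap.ker A.mulVecLin = LinearMap.range W.mulVecLin := by
  refine (Submodule.eq_of_le_of_finrank_eq ?_ ?_).symm
  · rintro _ ⟨u, rfl⟩
    rw [LinearMap.mem_ker, Matrix.mulVecLin_apply, Matrix.mulVecLin_apply,
      Matrix.mulVec_mulVec, hAW, Matrix.zero_mulVec]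
  · have h3 := LinearMap.finrank_range_add_finrank_ker A.mulVecLin
    have h4 : LinearMap.range A.mulVecLin = ⊤ := LinearMap.range_eq_top.2 hA
    have h5 := LinearMap.finrank_range_of_inj (f := W.mulVecLin) hW
    rw [h4, finrank_top, Module.finrank_fin_fun, Module.finrank_fin_fun] at h3
    rw [h5, Module.finrank_fin_fun]
    omega

/-- change of charts for `InKer` -/
lemma inKer_change {n : ℕ} {X : Type} [TopologicalSpace X] [ChartedSpace (Cm n) X]
    [IsManifold 𝓘(ℂ, Cm n) ω X] {θ : FormM n X} (hθ : IsForm θ) {e e' : Chart n X} {z : X}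
    (h : At e z) (h' : At e' z) {v : Cm n} :
    InKer (θ e' (e' z)) (jacM e e' z *ᵥ v) ↔ InKer (θ e (e z)) v := by
  rw [inKer_iff, inKer_iff]
  refine ⟨fun h0 => ?_, fun h0 => ?_⟩
  · rw [hθ e e' z h h', Matrix.transpose_mul, Matrix.transpose_mul, Matrix.transpose_transpose,
      ← Matrix.mulVec_mulVec, ← Matrix.mulVec_mulVec, h0, Matrix.mulVec_zero]
  · exact mem_KH_change hθ h h' h0

/-! ### limits of kernels -/

section ker

variable {n p : ℕ} {Z Y X : Type} [TopologicalSpace Z] [ChartedSpace (Cm n) Z]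
  [IsManifold 𝓘(ℂ, Cm n) ω Z] [TopologicalSpace Y] [ChartedSpace (Cm p) Y]
  [IsManifold 𝓘(ℂ, Cm p) ω Y] [TopologicalSpace X] [ChartedSpace (Cm n) X]
  [IsManifold 𝓘(ℂ, Cm n) ω X]

/-- the derivative of a map in a chart of the target -/
lemma dV_chart {j : Z → X} {z : Z} (hj : ContMDiffAt 𝓘(ℂ, Cm n) 𝓘(ℂ, Cm n) ω j z)
    {e : Chart n X} (he : At e (j z)) (ξ : Cm n) :
    Vale.Agent.P281.dV (Cm n) (fun w => e (j w)) z ξ = jacF j (chartAt (Cm n) z) e z *ᵥ ξ := by
  have h0 : ContMDiffAt 𝓘(ℂ, Cm n) 𝓘(ℂ, Cm n) ω (fun w => e (j w)) z :=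
    (chart_contMDiffAt he).comp z hj
  have h1 := mfderiv_eq_jacF h0 ξ
  exact h1

/-- **KerLimit.**  If the kernel of `θ` is contained in the kernel of `df`, generically, then at each
point there is a space of vectors of dimension `≥ n - ν`, contained in both kernels. -/
theorem kerLimit {θ : FormM n X} (hθ : IsForm θ)
    (hc : ∀ e x, At e x → ∀ i j, ContinuousAt (fun z => θ e z i j) (e x)) {ν : ℕ}
    (hν : ∀ e x, At e x → (θ e (e x)).rank ≤ ν) {j : Z → X}
    (hj : ContMDiff 𝓘(ℂ, Cm n) 𝓘(ℂ, Cm n) ω j) {f : Z → Y}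
    (hf : ContMDiff 𝓘(ℂ, Cm n) 𝓘(ℂ, Cm p) ω f)
    (hd : Dense {z : Z | ∀ e : Chart n X, At e (j z) → ∀ ξ : Cm n,
      InKer (θ e (e (j z))) (Vale.Agent.P281.dV (Cm n) (fun w => e (j w)) z ξ) → Vale.Agent.P281.dM (Cm n) (Cm p) f z ξ = 0})
    (z : Z) : ∃ K : Submodule ℂ (Cm n), n ≤ ν + Module.finrank ℂ K ∧ ∀ w ∈ K,
      Vale.Agent.P281.dM (Cm n) (Cm p) f z w = 0 ∧
        InKer (θ (chartAt (Cm n) (j z)) (chartAt (Cm n) (j z) (j z)))
          (jacF j (chartAt (Cm n) z) (chartAt (Cm n) (j z)) z *ᵥ w) := by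
  have hjz : ContMDiffAt 𝓘(ℂ, Cm n) 𝓘(ℂ, Cm n) ω j z := hj.contMDiffAt
  have hfz : ContMDiffAt 𝓘(ℂ, Cm n) 𝓘(ℂ, Cm p) ω f z := hf.contMDiffAt
  set c : Chart n Z := chartAt (Cm n) z with hcd
  set E : Chart n X := chartAt (Cm n) (j z) with hEd
  set c' : Chart p Y := chartAt (Cm p) (f z) with hcd'
  have hcz : At c z := at_chartAt (n := n) z
  have hEz : At E (j z) := at_chartAt (n := n) (j z)
  have hc'z : At c' (f z) := at_chartAt (n := p) (f z)
  -- the matrices
  set B : Z → Matrix (Fin n) (Fin n) ℂ := fun w => (θ E (E (j w)))ᵀ * jacF j c E w with hB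
  set A : Z → Matrix (Fin p) (Fin n) ℂ := fun w => jacF f c c' w with hA
  have hBc : ContinuousAt B z := by
    refine cAt_mul ?_ (jacF_cont hjz hcz hEz)
    have h1 : ContinuousAt (fun w => θ E (E (j w))) z := by
      refine continuousAt_pi.2 fun a => continuousAt_pi.2 fun b => ?_
      have h2 : ContinuousAt (fun w => E (j w)) z :=
        ContinuousAt.comp (g := E) (E.continuousAt hEz.2) hjz.continuousAt
      exact ContinuousAt.comp (g := fun w => θ E w a b) (f := fun w => E (j w))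
        (hc E (j z) hEz a b) h2
    exact (continuous_id.matrix_transpose
      (A := fun M : Matrix (Fin n) (Fin n) ℂ => M)).continuousAt.comp h1
  have hAc : ContinuousAt A z := jacF_cont hfz hcz hc'z
  have h1 := ker_limit (n := n) (z₀ := z) (A := fun w => Matrix.fromRows (B w) (A w))
    (q := n - ν) ?_ ?_
  · refine ⟨LinearMap.ker (Matrix.fromRows (B z) (A z)).mulVecLin,
      Nat.sub_le_iff_le_add'.1 h1, fun w hw => ?_⟩
    rw [LinearMap.mem_ker, Matrix.mulVecLin_apply, Matrix.fromRows_mulVec] at hw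
    have hw1 : B z *ᵥ w = 0 := funext fun a => congrFun hw (Sum.inl a)
    have hw2 : A z *ᵥ w = 0 := funext fun a => congrFun hw (Sum.inr a)
    refine ⟨?_, ?_⟩
    · have h2 := mfderiv_eq_jacF hfz w
      exact h2.trans hw2
    · rw [inKer_iff, Matrix.mulVec_mulVec]
      exact hw1
  · rintro (a | a) b
    · exact ((continuous_apply b).comp (continuous_apply a)).continuousAt.comp hBc
    · exact ((continuous_apply b).comp (continuous_apply a)).continuousAt.comp hAc
  · refine ((mem_closure_iff_frequently.1 (hd z)).and_eventually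
      (((hol_nhds hfz).and (hol_nhds hjz)).and
        ((show ∀ᶠ w in 𝓝 z, w ∈ c.source from c.open_source.mem_nhds hcz.2).and
        ((hfz.continuousAt.eventually (c'.open_source.mem_nhds hc'z.2)).and
        (hjz.continuousAt.eventually (E.open_source.mem_nhds hEz.2)))))).mono ?_
    rintro w ⟨hw1, ⟨hw2, hw3⟩, hw4, hw5, hw6⟩
    have hcw : At c w := ⟨hcz.1, hw4⟩
    have hc'w : At c' (f w) := ⟨hc'z.1, hw5⟩
    have hEw : At E (j w) := ⟨hEz.1, hw6⟩
    have hle : LinearMap.ker (B w).mulVecLin ≤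
        LinearMap.ker (Matrix.fromRows (B w) (A w)).mulVecLin := by
      intro v hv
      have hv' : B w *ᵥ v = 0 := hv
      have h2 : InKer (θ E (E (j w)))
          (Vale.Agent.P281.dV (Cm n) (fun w => E (j w)) w (jacM c (chartAt (Cm n) w) w *ᵥ v)) := by
        rw [dV_chart hw3 hEw, inKer_iff, Matrix.mulVec_mulVec, Matrix.mulVec_mulVec,
          Matrix.mul_assoc, ← jacF_left hw3 hcw (at_chartAt w) hEw]
        exact hv'
      have h3 := hw1 E hEw _ h2
      have h4 : (jacF f (chartAt (Cm n) w) (chartAt (Cm p) (f w)) w) *ᵥ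
          (jacM c (chartAt (Cm n) w) w *ᵥ v) = 0 := (mfderiv_eq_jacF hw2 _).symm.trans h3
      rw [Matrix.mulVec_mulVec, ← jacF_left hw2 hcw (at_chartAt w) (at_chartAt (f w))] at h4
      have h5 : A w *ᵥ v = 0 := by
        change jacF f c c' w *ᵥ v = 0
        rw [jacF_right hw2 hcw (at_chartAt (f w)) hc'w, ← Matrix.mulVec_mulVec, h4]
        exact Matrix.mulVec_zero _
      rw [LinearMap.mem_ker, Matrix.mulVecLin_apply, Matrix.fromRows_mulVec, hv', h5]
      funext k
      rcases k with k | k <;> rfl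
    have h6 := Submodule.finrank_mono hle
    have h7 := finrank_ker (B w)
    have h8 : (B w).rank ≤ ν := by
      refine (Matrix.rank_mul_le_left _ _).trans ?_
      rw [Matrix.rank_transpose]
      exact hν E (j w) hEw
    omega

end ker

end Vale.Agent.P281.H949.MFS
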