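import Vale.Agent.P281.H949.MFS.Ker

/-! P281, theorem MFS: contracted hypersurfaces (row M-DG). -/

open scoped Manifold ContDiff Matrix Topology ComplexOrder
open Set Filter Vale.Agent.P272.K Vale.Agent.P281.H716 Vale.Agent.P299.D Vale.Agent.P299.H956
open Vale.Agent.P281.H368.MFS (IsSemiPos InKer jacI pull ConAt ConFib)

set_option linter.all false

noncomputable section

namespace Vale.Agent.P281.H949.MFS

/-! ### limits of contracted points -/

section lim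

variable {d : ℕ} {F : Type} [TopologicalSpace F] [ChartedSpace (Cm d) F]
  [IsManifold 𝓘(ℂ, Cm d) ω F]

/-- the differential of a function in a chart -/
lemma dif_chart {h : F → ℂ} {c : Chart d F} {s : F} (hs : At c s) (hh : J.HolAt (Cm d) h s)
    (u : Cm d) : J.dif (Cm d) h s u =
      fderiv ℂ (fun y => h (c.symm y)) (c s) (jacM (chartAt (Cm d) s) c s *ᵥ u) := by
  have hh' : ContMDiffAt 𝓘(ℂ, Cm d) 𝓘(ℂ, ℂ) ω h s := hh
  have h1 : ContMDiffAt 𝓘(ℂ, Cm d) 𝓘(ℂ, ℂ) ω (fun y => h (c.symm y)) (c s) := by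
    refine ContMDiffAt.comp (c s) (g := h) ?_ (chart_symm_contMDiffAt hs.1 hs.mem_target)
    rw [hs.left_inv]
    exact hh'
  have h2 : h =ᶠ[𝓝 s] ((fun y => h (c.symm y)) ∘ c) := by
    filter_upwards [c.open_source.mem_nhds hs.2] with t ht
    simp only [Function.comp_apply]
    rw [c.left_inv ht]
  have h3 : ContMDiffAt 𝓘(ℂ, Cm d) 𝓘(ℂ, Cm d) ω c s := chart_contMDiffAt hs
  have h4 : mfderiv 𝓘(ℂ, Cm d) 𝓘(ℂ, ℂ) h s =
      (mfderiv 𝓘(ℂ, Cm d) 𝓘(ℂ, ℂ) (fun y => h (c.symm y)) (c s)).comp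
        (mfderiv 𝓘(ℂ, Cm d) 𝓘(ℂ, Cm d) c s) := by
    rw [h2.mfderiv_eq]
    exact mfderiv_comp s (h1.mdifferentiableAt (by simp)) (h3.mdifferentiableAt (by simp))
  have h5 := mfderiv_chart hs u
  change (mfderiv 𝓘(ℂ, Cm d) 𝓘(ℂ, ℂ) h s : Cm d →L[ℂ] ℂ) u = _
  rw [h4, mfderiv_eq_fderiv]
  change (fderiv ℂ (fun y => h (c.symm y)) (c s))
    ((mfderiv 𝓘(ℂ, Cm d) 𝓘(ℂ, Cm d) c s : Cm d →L[ℂ] Cm d) u) = _
  rw [h5]

lemma hol_nhds' {h : F → ℂ} {s : F} (hh : J.HolAt (Cm d) h s) :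
    ∀ᶠ x in 𝓝 s, J.HolAt (Cm d) h x :=
  (contMDiffAt_iff_contMDiffAt_nhds (by simp)).1 hh

/-- a limit of contracted points is contracted -/
theorem conAt_limit {h : F → ℂ} {α θ : FormM d F} (hα : IsForm α) (hθ : IsForm θ)
    (hαc : ∀ e x, At e x → ∀ i j, ContinuousAt (fun z => α e z i j) (e x))
    (hθc : ∀ e x, At e x → ∀ i j, ContinuousAt (fun z => θ e z i j) (e x)) {s : F}
    (hh : J.HolAt (Cm d) h s) (hf : ∃ᶠ s' in 𝓝 s, ConAt d h α θ s') : ConAt d h α θ s := by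
  set c : Chart d F := chartAt (Cm d) s with hcd
  have hcs : At c s := at_chartAt (n := d) s
  -- the matrices
  set D : F → Matrix (Fin 1) (Fin d) ℂ := fun t =>
    Matrix.of fun _ b => fderiv ℂ (fun y => h (c.symm y)) (c t) (Pi.single b 1) with hD
  have hDm : ∀ t v, D t *ᵥ v = 0 ↔ fderiv ℂ (fun y => h (c.symm y)) (c t) v = 0 := by
    intro t v
    have h1 : fderiv ℂ (fun y => h (c.symm y)) (c t) v =
        ∑ b, v b * fderiv ℂ (fun y => h (c.symm y)) (c t) (Pi.single b 1) := by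
      conv_lhs => rw [← Finset.univ_sum_single v]
      rw [map_sum]
      refine Finset.sum_congr rfl fun b _ => ?_
      have h2 : (Pi.single b (v b) : Cm d) = v b • Pi.single b (1 : ℂ) := by
        rw [← Pi.single_smul, smul_eq_mul, mul_one]
      rw [h2, map_smul, smul_eq_mul]
    have h3 : ∀ a, (D t *ᵥ v) a = fderiv ℂ (fun y => h (c.symm y)) (c t) v := by
      intro a
      rw [h1, Matrix.mulVec, dotProduct]
      exact Finset.sum_congr rfl fun b _ => mul_comm _ _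
    refine ⟨fun h4 => ?_, fun h4 => funext fun a => ?_⟩
    · rw [← h3 0, h4]; rfl
    · rw [h3, h4]; rfl
  have hDc : ∀ a b, ContinuousAt (fun t => D t a b) s := by
    intro a b
    have h1 : ContDiffAt ℂ ω (fun y => h (c.symm y)) (c s) := by
      rw [← contMDiffAt_iff_contDiffAt]
      refine ContMDiffAt.comp (c s) (g := h) ?_ (chart_symm_contMDiffAt hcs.1 hcs.mem_target)
      rw [hcs.left_inv]
      exact hh
    have h2 : ContDiffAt ℂ 0 (fderiv ℂ fun y => h (c.symm y)) (c s) :=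
      h1.fderiv_right (by simp)
    have h3 : ContinuousAt (fun t => fderiv ℂ (fun y => h (c.symm y)) (c t)) s :=
      ContinuousAt.comp (g := fderiv ℂ fun y => h (c.symm y)) h2.continuousAt
        (c.continuousAt hcs.2)
    exact h3.clm_apply continuousAt_const
  set A : F → Matrix (Fin d) (Fin d) ℂ := fun t => (α c (c t))ᵀ with hA
  set B : F → Matrix (Fin d) (Fin d) ℂ := fun t => (θ c (c t))ᵀ with hB
  have h1 := ker_limit (n := d) (z₀ := s)
    (A := fun t => Matrix.fromRows (D t) (Matrix.fromRows (A t) (B t))) (q := 1) ?_ ?_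
  · rw [Submodule.one_le_finrank_iff, Submodule.ne_bot_iff] at h1
    obtain ⟨w, hw, hw0⟩ := h1
    rw [LinearMap.mem_ker, Matrix.mulVecLin_apply, Matrix.fromRows_mulVec,
      Matrix.fromRows_mulVec] at hw
    have hw1 : D s *ᵥ w = 0 := funext fun a => congrFun hw (Sum.inl a)
    have hw2 : A s *ᵥ w = 0 := funext fun a => congrFun hw (Sum.inr (Sum.inl a))
    have hw3 : B s *ᵥ w = 0 := funext fun a => congrFun hw (Sum.inr (Sum.inr a))
    refine ⟨w, hw0, ?_, inKer_iff.2 hw2, inKer_iff.2 hw3⟩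
    rw [dif_chart hcs hh, jacM_self hcs, Matrix.one_mulVec]
    exact (hDm s w).1 hw1
  · rintro (a | a | a) b
    · exact hDc a b
    · exact ContinuousAt.comp (g := fun z => α c z b a) (f := c) (hαc c s hcs b a)
        (c.continuousAt hcs.2)
    · exact ContinuousAt.comp (g := fun z => θ c z b a) (f := c) (hθc c s hcs b a)
        (c.continuousAt hcs.2)
  · refine (hf.and_eventually ((hol_nhds' hh).and
      (show ∀ᶠ w in 𝓝 s, w ∈ c.source from c.open_source.mem_nhds hcs.2))).mono ?_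
    rintro t ⟨⟨u, hu0, hu1, hu2, hu3⟩, ht1, ht2⟩
    have hct : At c t := ⟨hcs.1, ht2⟩
    rw [Submodule.one_le_finrank_iff, Submodule.ne_bot_iff]
    refine ⟨jacM (chartAt (Cm d) t) c t *ᵥ u, ?_, ?_⟩
    · rw [LinearMap.mem_ker, Matrix.mulVecLin_apply, Matrix.fromRows_mulVec,
        Matrix.fromRows_mulVec]
      have k1 : D t *ᵥ (jacM (chartAt (Cm d) t) c t *ᵥ u) = 0 := by
        rw [hDm, ← dif_chart hct ht1]
        exact hu1
      have k2 : A t *ᵥ (jacM (chartAt (Cm d) t) c t *ᵥ u) = 0 :=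
        inKer_iff.1 ((inKer_change hα (at_chartAt (n := d) t) hct).2 hu2)
      have k3 : B t *ᵥ (jacM (chartAt (Cm d) t) c t *ᵥ u) = 0 :=
        inKer_iff.1 ((inKer_change hθ (at_chartAt (n := d) t) hct).2 hu3)
      rw [k1, k2, k3]
      funext k
      rcases k with k | k | k <;> rfl
    · intro h0
      apply hu0
      have h3 : jacM c (chartAt (Cm d) t) t * jacM (chartAt (Cm d) t) c t = 1 :=
        jacM_mul (at_chartAt (n := d) t) hct
      rw [← Matrix.one_mulVec u, ← h3, ← Matrix.mulVec_mulVec, h0, Matrix.mulVec_zero]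

end lim

/-! ### contracted hypersurfaces of the fibres -/

section fib

variable {n p d : ℕ} {Z Y X F : Type} [TopologicalSpace Z] [ChartedSpace (Cm n) Z]
  [IsManifold 𝓘(ℂ, Cm n) ω Z] [TopologicalSpace Y] [ChartedSpace (Cm p) Y]
  [IsManifold 𝓘(ℂ, Cm p) ω Y] [TopologicalSpace X] [ChartedSpace (Cm n) X]
  [IsManifold 𝓘(ℂ, Cm n) ω X] [TopologicalSpace F] [ChartedSpace (Cm d) F]
  [IsManifold 𝓘(ℂ, Cm d) ω F]

lemma pullM_cont' {θ : FormM n X} (hθ : IsForm θ)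
    (hc : ∀ e x, At e x → ∀ i j, ContinuousAt (fun z => θ e z i j) (e x)) {j : F → X}
    (hj : ContMDiff 𝓘(ℂ, Cm d) 𝓘(ℂ, Cm n) ω j) {e : Chart d F} {z : F} (he : At e z)
    (a b : Fin d) : ContinuousAt (fun w => pullM j θ e w a b) (e z) := by
  have hjz : ContMDiffAt 𝓘(ℂ, Cm d) 𝓘(ℂ, Cm n) ω j z := hj.contMDiffAt
  have he' := at_chartAt (n := n) (j z)
  have h1 := rep_hol hjz he he'
  have h2 := pullM_eventually hθ hjz he he'
  have h3 : ContinuousAt (fun w => jmR (fun w => (chartAt (Cm n) (j z)) (j (e.symm w))) w) (e z) :=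
    continuousAt_pi.2 fun a => continuousAt_pi.2 fun b => (jmR_holo h1 a b).continuousAt
  have h4 : ContinuousAt (fun w => θ (chartAt (Cm n) (j z))
      ((chartAt (Cm n) (j z)) (j (e.symm w)))) (e z) := by
    refine continuousAt_pi.2 fun a => continuousAt_pi.2 fun b => ?_
    have h5 := hc (chartAt (Cm n) (j z)) (j z) he' a b
    refine ContinuousAt.comp (g := fun w => θ (chartAt (Cm n) (j z)) w a b)
      (f := fun w => (chartAt (Cm n) (j z)) (j (e.symm w))) ?_ h1.continuousAt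
    rw [he.left_inv]
    exact h5
  have h5 : ContinuousAt (fun w =>
      (jmR (fun w => (chartAt (Cm n) (j z)) (j (e.symm w))) w).transpose *
        θ (chartAt (Cm n) (j z)) ((chartAt (Cm n) (j z)) (j (e.symm w))) *
        (jmR (fun w => (chartAt (Cm n) (j z)) (j (e.symm w))) w).map (starRingEnd ℂ)) (e z) := by
    refine cAt_mul (cAt_mul ?_ h4) ?_
    · exact (continuous_id.matrix_transpose
        (A := fun M : Matrix (Fin n) (Fin d) ℂ => M)).continuousAt.comp h3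
    · exact (continuous_id.matrix_map Complex.continuous_conj
        (A := fun M : Matrix (Fin n) (Fin d) ℂ => M)).continuousAt.comp h3
  have h6 : ContinuousAt (pullM j θ e) (e z) := h5.congr h2.symm
  exact ((continuous_apply b).comp (continuous_apply a)).continuousAt.comp h6

/-- vectors in the kernel of `pull ι θ` -/
lemma inKer_pull {θ : FormM n X} (hθ : IsForm θ) {ι : F → X} {t : F}
    (hι : ContMDiffAt 𝓘(ℂ, Cm d) 𝓘(ℂ, Cm n) ω ι t) {e : Chart d F} (he : At e t)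
    {E : Chart n X} (hE : At E (ι t)) {u : Cm d}
    (hu : InKer (θ E (E (ι t))) (jacF ι e E t *ᵥ u)) : InKer (pull ι θ e (e t)) u := by
  have h1 : pull ι θ e (e t) = pullM ι θ e (e t) := rfl
  rw [inKer_iff] at hu ⊢
  rw [h1, pullM_eq hθ hι he hE, Matrix.transpose_mul, Matrix.transpose_mul,
    Matrix.transpose_transpose, ← Matrix.mulVec_mulVec, ← Matrix.mulVec_mulVec, hu,
    Matrix.mulVec_zero]

/-- where the rank of `θ` is `ν`, the kernel of `θ` is tangent to the fibre -/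
theorem ker_tangent (hn : n = p + d) {θ : FormM n X} (hθ : IsForm θ)
    (hc : ∀ e x, At e x → ∀ i j, ContinuousAt (fun z => θ e z i j) (e x)) {ν : ℕ}
    (hν : ∀ e x, At e x → (θ e (e x)).rank ≤ ν) {j : Z → X}
    (hj : ContMDiff 𝓘(ℂ, Cm n) 𝓘(ℂ, Cm n) ω j)
    (hji : ∀ z, Function.Injective (mfderiv 𝓘(ℂ, Cm n) 𝓘(ℂ, Cm n) j z)) {f : Z → Y}
    (hf : ContMDiff 𝓘(ℂ, Cm n) 𝓘(ℂ, Cm p) ω f) {i : F → Z}
    (hi : H713.IsSmoothFibre (Cm n) (Cm p) (Cm d) f i)
    (hd : Dense {z : Z | ∀ e : Chart n X, At e (j z) → ∀ ξ : Cm n,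
      InKer (θ e (e (j z))) (Vale.Agent.P281.dV (Cm n) (fun w => e (j w)) z ξ) →
        Vale.Agent.P281.dM (Cm n) (Cm p) f z ξ = 0}) {t : F}
    (hr : (θ (chartAt (Cm n) (j (i t))) (chartAt (Cm n) (j (i t)) (j (i t)))).rank = ν)
    {w : Cm n} (hw : InKer (θ (chartAt (Cm n) (j (i t)))
      (chartAt (Cm n) (j (i t)) (j (i t)))) w) :
    ∃ u : Cm d, jacF (fun t => j (i t)) (chartAt (Cm d) t) (chartAt (Cm n) (j (i t))) t *ᵥ u = w := by
  obtain ⟨K, hK1, hK2⟩ := kerLimit hθ hc hν hj hf hd (i t)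
  have hit : ContMDiffAt 𝓘(ℂ, Cm d) 𝓘(ℂ, Cm n) ω i t := hi.hol.contMDiffAt
  have hjz : ContMDiffAt 𝓘(ℂ, Cm n) 𝓘(ℂ, Cm n) ω j (i t) := hj.contMDiffAt
  have hfz : ContMDiffAt 𝓘(ℂ, Cm n) 𝓘(ℂ, Cm p) ω f (i t) := hf.contMDiffAt
  set E : Chart n X := chartAt (Cm n) (j (i t)) with hE
  set Jj : Matrix (Fin n) (Fin n) ℂ := jacF j (chartAt (Cm n) (i t)) E (i t) with hJj
  have hinj : Function.Injective Jj.mulVecLin := by
    have h1 := Vale.Agent.P281.H167.SA.immersive_of_mfderiv hj hji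
    refine (injective_iff_map_eq_zero Jj.mulVecLin).2 fun u hu => ?_
    exact h1 _ E (i t) (at_chartAt (n := n) (i t)) (at_chartAt (n := n) (j (i t))) u hu
  -- the image of `K` is the kernel of `θ`
  have h1 : K.map Jj.mulVecLin = KH (θ E (E (j (i t)))) := by
    refine Submodule.eq_of_le_of_finrank_le ?_ ?_
    · rintro _ ⟨v, hv, rfl⟩
      exact inKer_iff.1 (hK2 v hv).2
    · rw [← (Submodule.equivMapOfInjective _ hinj K).finrank_eq]
      have h2 := finrank_KH (θ E (E (j (i t))))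
      rw [hr] at h2
      have h3 : ν + Module.finrank ℂ (KH (θ E (E (j (i t))))) ≤ ν + Module.finrank ℂ K := by
        rw [h2]; exact hK1
      exact Nat.le_of_add_le_add_left h3
  have h2 : w ∈ K.map Jj.mulVecLin := by
    rw [h1]; exact inKer_iff.1 hw
  obtain ⟨v, hv, rfl⟩ := h2
  -- `v` is tangent to the fibre
  have h3 : jacF f (chartAt (Cm n) (i t)) (chartAt (Cm p) (f (i t))) (i t) *ᵥ v = 0 :=
    (mfderiv_eq_jacF hfz v).symm.trans (hK2 v hv).1
  have h4 := ker_eq_range hn (A := jacF f (chartAt (Cm n) (i t)) (chartAt (Cm p) (f (i t))) (i t))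
    (W := jacF i (chartAt (Cm d) t) (chartAt (Cm n) (i t)) t) ?_ ?_ ?_
  · have h5 : v ∈ LinearMap.range
        (jacF i (chartAt (Cm d) t) (chartAt (Cm n) (i t)) t).mulVecLin := by
      rw [← h4]; exact h3
    obtain ⟨u, rfl⟩ := h5
    refine ⟨u, ?_⟩
    rw [jacF_comp hit hjz (at_chartAt t) (at_chartAt (i t)) (at_chartAt (j (i t))),
      ← Matrix.mulVec_mulVec]
    rfl
  · intro y
    obtain ⟨v, hv⟩ := hi.submersive t y
    exact ⟨v, (mfderiv_eq_jacF hfz v).symm.trans hv⟩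
  · have h1 := Vale.Agent.P281.H167.SA.immersive_of_mfderiv hi.hol hi.immersive
    intro u u' huu
    have h2 : jacF i (chartAt (Cm d) t) (chartAt (Cm n) (i t)) t *ᵥ (u - u') = 0 := by
      rw [Matrix.mulVec_sub]
      exact sub_eq_zero.2 huu
    exact sub_eq_zero.1 (h1 _ _ t (at_chartAt (n := d) t) (at_chartAt (n := n) (i t)) _ h2)
  · have h1 := jacF_comp hit hfz (at_chartAt t) (at_chartAt (i t)) (at_chartAt (f (i t)))
    rw [← h1]
    have h2 : (fun y => f (i y)) = fun _ => f (i t) := funext fun s => hi.const s t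
    rw [h2]
    ext a b
    simp [jacF, dz]

/-- **Row M-DG**: contracted hypersurfaces of `X` give contracted hypersurfaces of `F`. -/
theorem con_fibre (hn : n = p + d) {α θ : FormM n X} (hα : IsSemiPos α) (hθ : IsSemiPos θ) {ν : ℕ}
    (hν : ∀ e x, At e x → (θ e (e x)).rank ≤ ν) {j : Z → X}
    (hj : ContMDiff 𝓘(ℂ, Cm n) 𝓘(ℂ, Cm n) ω j)
    (hji : ∀ z, Function.Injective (mfderiv 𝓘(ℂ, Cm n) 𝓘(ℂ, Cm n) j z)) {f : Z → Y}
    (hf : ContMDiff 𝓘(ℂ, Cm n) 𝓘(ℂ, Cm p) ω f) {i : F → Z}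
    (hi : H713.IsSmoothFibre (Cm n) (Cm p) (Cm d) f i)
    (hd : Dense {z : Z | ∀ e : Chart n X, At e (j z) → ∀ ξ : Cm n,
      InKer (θ e (e (j z))) (Vale.Agent.P281.dV (Cm n) (fun w => e (j w)) z ξ) →
        Vale.Agent.P281.dM (Cm n) (Cm p) f z ξ = 0}) {g : X → ℂ} {s : F}
    (hg : J.HolAt (Cm n) g (j (i s))) (hs : ConFib n ν (fun t => j (i t)) g α θ s) :
    ConAt d (fun t => g (j (i t))) (pull (fun t => j (i t)) α) (pull (fun t => j (i t)) θ) s := by
  have hι : ContMDiff 𝓘(ℂ, Cm d) 𝓘(ℂ, Cm n) ω (fun t => j (i t)) := hj.comp hi.hol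
  have hαf : IsForm α := hα.change
  have hθf : IsForm θ := hθ.change
  have hαc : ∀ e x, At e x → ∀ i j, ContinuousAt (fun z => α e z i j) (e x) :=
    fun e x h i j => (hα.smooth e x h i j).continuousAt
  have hθc : ∀ e x, At e x → ∀ i j, ContinuousAt (fun z => θ e z i j) (e x) :=
    fun e x h i j => (hθ.smooth e x h i j).continuousAt
  have hgι : J.HolAt (Cm d) (fun t => g (j (i t))) s := by
    have h1 : ContMDiffAt 𝓘(ℂ, Cm n) 𝓘(ℂ, ℂ) ω g (j (i s)) := hg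
    exact ContMDiffAt.comp s (g := g) (f := fun t => j (i t)) h1 hι.contMDiffAt
  refine conAt_limit (isForm_pullM hαf hι) (isForm_pullM hθf hι)
    (fun e x h a b => pullM_cont' hαf hαc hι h a b)
    (fun e x h a b => pullM_cont' hθf hθc hι h a b) hgι ?_
  refine (hs.and_eventually (hι.continuous.continuousAt.eventually (hol_nhds' hg))).mono ?_
  rintro t ⟨⟨-, ⟨w, hw0, hw1, hw2, hw3⟩, hr⟩, hgt⟩
  obtain ⟨u, hu⟩ := ker_tangent hn hθf hθc hν hj hji hf hi hd hr hw3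
  have hιt : ContMDiffAt 𝓘(ℂ, Cm d) 𝓘(ℂ, Cm n) ω (fun t => j (i t)) t := hι.contMDiffAt
  refine ⟨u, ?_, ?_, ?_, ?_⟩
  · rintro rfl
    apply hw0
    rw [← hu, Matrix.mulVec_zero]
  · have h1 : ContMDiffAt 𝓘(ℂ, Cm n) 𝓘(ℂ, ℂ) ω g (j (i t)) := hgt
    have h2 : mfderiv 𝓘(ℂ, Cm d) 𝓘(ℂ, ℂ) (fun t => g (j (i t))) t =
        (mfderiv 𝓘(ℂ, Cm n) 𝓘(ℂ, ℂ) g (j (i t))).comp
          (mfderiv 𝓘(ℂ, Cm d) 𝓘(ℂ, Cm n) (fun t => j (i t)) t) :=
      mfderiv_comp t (g := g) (f := fun t => j (i t)) (h1.mdifferentiableAt (by simp))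
        (hιt.mdifferentiableAt (by simp))
    have h3 := mfderiv_eq_jacF hιt u
    change (mfderiv 𝓘(ℂ, Cm d) 𝓘(ℂ, ℂ) (fun t => g (j (i t))) t : Cm d →L[ℂ] ℂ) u = 0
    rw [h2]
    change (mfderiv 𝓘(ℂ, Cm n) 𝓘(ℂ, ℂ) g (j (i t)) : Cm n →L[ℂ] ℂ)
      ((mfderiv 𝓘(ℂ, Cm d) 𝓘(ℂ, Cm n) (fun t => j (i t)) t : Cm d →L[ℂ] Cm n) u) = 0
    rw [h3, hu]
    exact hw1
  · refine inKer_pull hαf hιt (at_chartAt (n := d) t) (at_chartAt (n := n) (j (i t))) ?_
    rw [hu]; exact hw2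
  · refine inKer_pull hθf hιt (at_chartAt (n := d) t) (at_chartAt (n := n) (j (i t))) ?_
    rw [hu]; exact hw3

end fib

end Vale.Agent.P281.H949.MFS
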