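import Vale.Agent.P281.H949.MFS.Rk
import Vale.Agent.P281.H167.SA.K

/-! P281, row M-RK: the rank of the restriction of a form to the smooth fibres. -/

open scoped Manifold ContDiff Matrix Topology
open Set Filter Vale.Agent.P272.K Vale.Agent.P281.H716 Vale.Agent.P299.D Vale.Agent.P299.H956

set_option linter.all false

noncomputable section

namespace Vale.Agent.P281.H949.MFS

variable {n p d : ℕ} {Z Y F : Type} [TopologicalSpace Z] [ChartedSpace (Cm n) Z]
  [IsManifold 𝓘(ℂ, Cm n) ω Z] [TopologicalSpace Y] [ChartedSpace (Cm p) Y]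
  [IsManifold 𝓘(ℂ, Cm p) ω Y] [TopologicalSpace F] [ChartedSpace (Cm d) F]
  [IsManifold 𝓘(ℂ, Cm d) ω F]

lemma hol_nhds {f : Z → Y} {z : Z} (hf : ContMDiffAt 𝓘(ℂ, Cm n) 𝓘(ℂ, Cm p) ω f z) :
    ∀ᶠ x in 𝓝 z, ContMDiffAt 𝓘(ℂ, Cm n) 𝓘(ℂ, Cm p) ω f x :=
  (contMDiffAt_iff_contMDiffAt_nhds (by simp)).1 hf

/-- the Jacobian matrices are continuous -/
lemma jacF_cont {f : Z → Y} {z₀ : Z} (hf : ContMDiffAt 𝓘(ℂ, Cm n) 𝓘(ℂ, Cm p) ω f z₀)
    {e : Chart n Z} {e' : Chart p Y} (h : At e z₀) (h' : At e' (f z₀)) :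
    ContinuousAt (fun z => jacF f e e' z) z₀ := by
  have h1 := rep_hol hf h h'
  refine continuousAt_pi.2 fun a => continuousAt_pi.2 fun b => ?_
  have h2 : ContinuousAt (fun y => jmR (fun w => e' (f (e.symm w))) y a b) (e z₀) :=
    (jmR_holo h1 a b).continuousAt
  exact h2.comp (e.continuousAt h.2)

/-- kernels in two charts -/
lemma mem_KH_change {θ : FormM n Z} (hθ : IsForm θ) {e e' : Chart n Z} {z : Z} (h : At e z)
    (h' : At e' z) {v : Cm n} (hv : v ∈ KH (θ e (e z))) :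
    jacM e e' z *ᵥ v ∈ KH (θ e' (e' z)) := by
  have h0 : (θ e (e z))ᵀ *ᵥ v = 0 := hv
  change (θ e' (e' z))ᵀ *ᵥ (jacM e e' z *ᵥ v) = 0
  have h1 : (jacM e' e z).map (starRingEnd ℂ) = ((jacM e' e z).map (starRingEnd ℂ)) := rfl
  have h2 := hθ e' e z h' h
  have h3 : jacM e' e z * jacM e e' z = 1 := jacM_mul h h'
  rw [h2, Matrix.transpose_mul, Matrix.transpose_mul, Matrix.transpose_transpose,
    Matrix.mulVec_mulVec, Matrix.mul_assoc, Matrix.mul_assoc, h3, Matrix.mul_one,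
    ← Matrix.mulVec_mulVec, h0, Matrix.mulVec_zero]

/-- **Row M-RK**, on `Z`. -/
theorem rank_fibre (hn : n = p + d) {θ : FormM n Z} (hθ : IsForm θ)
    (hc : ∀ e x, At e x → ∀ i j, ContinuousAt (fun z => θ e z i j) (e x)) {ν : ℕ}
    (hν : ∀ e x, At e x → (θ e (e x)).rank ≤ ν) {f : Z → Y}
    (hf : ContMDiff 𝓘(ℂ, Cm n) 𝓘(ℂ, Cm p) ω f) {i : F → Z}
    (hi : H713.IsSmoothFibre (Cm n) (Cm p) (Cm d) f i)
    (hd : Dense {z : Z | ∀ v ∈ KH (θ (chartAt (Cm n) z) (chartAt (Cm n) z z)),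
      (mfderiv 𝓘(ℂ, Cm n) 𝓘(ℂ, Cm p) f z : Cm n →L[ℂ] Cm p) v = 0})
    {e : Chart d F} {t : F} (ht : At e t) : (pullM i θ e (e t)).rank + p ≤ ν := by
  have hit : ContMDiffAt 𝓘(ℂ, Cm d) 𝓘(ℂ, Cm n) ω i t := hi.hol.contMDiffAt
  have hft : ContMDiffAt 𝓘(ℂ, Cm n) 𝓘(ℂ, Cm p) ω f (i t) := hf.contMDiffAt
  set c : Chart n Z := chartAt (Cm n) (i t) with hcdef
  set c' : Chart p Y := chartAt (Cm p) (f (i t)) with hcdef'
  have hz : At c (i t) := at_chartAt (n := n) (i t)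
  have hy : At c' (f (i t)) := at_chartAt (n := p) (f (i t))
  rw [pullM_eq hθ hit ht hz]
  refine rank_limit hn (z₀ := i t) (θ := fun z => θ c (c z)) (A := fun z => jacF f c c' z)
    (J := jacF i e c t) ?_ (jacF_cont hft hz hy) ?_ ?_ ?_ ?_
  · refine continuousAt_pi.2 fun a => continuousAt_pi.2 fun b => ?_
    exact (hc c (i t) hz a b).comp (c.continuousAt hz.2)
  · intro y
    obtain ⟨v, hv⟩ := hi.submersive t y
    exact ⟨v, (mfderiv_eq_jacF hft v).symm.trans hv⟩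
  · have h1 := Vale.Agent.P281.H167.SA.immersive_of_mfderiv hi.hol hi.immersive
    intro u u' huu
    have h2 : jacF i e c t *ᵥ (u - u') = 0 := by
      rw [Matrix.mulVec_sub]
      exact sub_eq_zero.2 huu
    exact sub_eq_zero.1 (h1 e c t ht hz _ h2)
  · have h1 := jacF_comp hit hft ht hz hy
    rw [← h1]
    have h2 : (fun y => f (i y)) = fun _ => f (i t) := funext fun s => hi.const s t
    rw [h2]
    ext a b
    simp [jacF, dz]
  · refine ((mem_closure_iff_frequently.1 (hd (i t))).and_eventually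
      (((hol_nhds hft).and ((c.open_source.mem_nhds hz.2))).and
        ((hft.continuousAt.eventually (c'.open_source.mem_nhds hy.2))))).mono ?_
    rintro z ⟨hz1, ⟨hz2, hz3⟩, hz4⟩
    have hcz : At c z := ⟨hz.1, hz3⟩
    have hcy : At c' (f z) := ⟨hy.1, hz4⟩
    refine ⟨hν c z hcz, fun v hv => ?_⟩
    have h1 := hz1 _ (mem_KH_change hθ hcz (at_chartAt (n := n) z) hv)
    rw [mfderiv_eq_jacF hz2, Matrix.mulVec_mulVec, ← jacF_left hz2 hcz (at_chartAt z)
      (at_chartAt (f z))] at h1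
    rw [jacF_right hz2 hcz (at_chartAt (f z)) hcy, ← Matrix.mulVec_mulVec, h1]
    exact Matrix.mulVec_zero _

/-! ### the version on `X` -/

variable {X : Type} [TopologicalSpace X] [ChartedSpace (Cm n) X] [IsManifold 𝓘(ℂ, Cm n) ω X]

lemma pullM_comp {m : ℕ} {V : Type} [TopologicalSpace V] [ChartedSpace (Cm m) V]
    [IsManifold 𝓘(ℂ, Cm m) ω V] {θ : FormM n X} (hθ : IsForm θ) {j : V → X} {i : F → V}
    (hj : ContMDiff 𝓘(ℂ, Cm m) 𝓘(ℂ, Cm n) ω j) (hi : ContMDiff 𝓘(ℂ, Cm d) 𝓘(ℂ, Cm m) ω i)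
    {e : Chart d F} {t : F} (ht : At e t) :
    pullM i (pullM j θ : FormM m V) e (e t) = pullM (fun t => j (i t)) θ e (e t) := by
  have h1 := pullM_eq (isForm_pullM hθ hj) (hi.contMDiffAt (x := t)) ht
    (at_chartAt (n := m) (i t))
  have h2 := pullM_eq hθ (hj.contMDiffAt (x := i t)) (at_chartAt (n := m) (i t))
    (at_chartAt (n := n) (j (i t)))
  have h3 : ContMDiffAt 𝓘(ℂ, Cm d) 𝓘(ℂ, Cm n) ω (fun t => j (i t)) t := (hj.comp hi).contMDiffAt
  have h4 := pullM_eq hθ h3 ht (at_chartAt (n := n) (j (i t)))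
  rw [h1, h2, h4, jacF_comp (hi.contMDiffAt (x := t)) (hj.contMDiffAt (x := i t)) ht
    (at_chartAt (n := m) (i t)) (at_chartAt (n := n) (j (i t))), Matrix.transpose_mul,
    mcj_rect_mul]
  simp only [Matrix.mul_assoc]

lemma pullM_cont {θ : FormM n X} (hθ : IsForm θ)
    (hc : ∀ e x, At e x → ∀ i j, ContinuousAt (fun z => θ e z i j) (e x)) {j : Z → X}
    (hj : ContMDiff 𝓘(ℂ, Cm n) 𝓘(ℂ, Cm n) ω j) {e : Chart n Z} {z : Z} (he : At e z)
    (a b : Fin n) : ContinuousAt (fun w => pullM j θ e w a b) (e z) := by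
  have hjz : ContMDiffAt 𝓘(ℂ, Cm n) 𝓘(ℂ, Cm n) ω j z := hj.contMDiffAt
  have he' := at_chartAt (n := n) (j z)
  have h1 := rep_hol hjz he he'
  have h2 := pullM_eventually hθ hjz he he'
  have h3 : ContinuousAt (fun w => jmR (fun w => (chartAt (Cm n) (j z)) (j (e.symm w))) w) (e z) :=
    continuousAt_pi.2 fun a => continuousAt_pi.2 fun b => (jmR_holo h1 a b).continuousAt
  have h4 : ContinuousAt (fun w => θ (chartAt (Cm n) (j z))
      ((chartAt (Cm n) (j z)) (j (e.symm w)))) (e z) := by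
    refine continuousAt_pi.2 fun a => continuousAt_pi.2 fun b => ?_
    have h5 := hc (chartAt (Cm n) (j z)) (j z) he' a b
    refine ContinuousAt.comp (g := fun w => θ (chartAt (Cm n) (j z)) w a b)
      (f := fun w => (chartAt (Cm n) (j z)) (j (e.symm w))) ?_ h1.continuousAt
    rw [he.left_inv]
    exact h5
  have h5 : ContinuousAt (fun w =>
      (jmR (fun w => (chartAt (Cm n) (j z)) (j (e.symm w))) w).transpose *
        θ (chartAt (Cm n) (j z)) ((chartAt (Cm n) (j z)) (j (e.symm w))) *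
        (jmR (fun w => (chartAt (Cm n) (j z)) (j (e.symm w))) w).map (starRingEnd ℂ)) (e z) := by
    refine cAt_mul (cAt_mul ?_ h4) ?_
    · exact (continuous_id.matrix_transpose
        (A := fun M : Matrix (Fin n) (Fin n) ℂ => M)).continuousAt.comp h3
    · exact (continuous_id.matrix_map Complex.continuous_conj
        (A := fun M : Matrix (Fin n) (Fin n) ℂ => M)).continuousAt.comp h3
  have h6 : ContinuousAt (pullM j θ e) (e z) := h5.congr h2.symm
  exact ((continuous_apply b).comp (continuous_apply a)).continuousAt.comp h6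

/-- **Row M-RK**: the restriction of the form `θ` of `X` to a smooth fibre of `f : Z → Y`
(`j : Z → X` is locally biholomorphic). -/
theorem rank_fibreX (hn : n = p + d) {θ : FormM n X} (hθ : IsForm θ)
    (hc : ∀ e x, At e x → ∀ i j, ContinuousAt (fun z => θ e z i j) (e x)) {ν : ℕ}
    (hν : ∀ e x, At e x → (θ e (e x)).rank ≤ ν) {j : Z → X}
    (hj : ContMDiff 𝓘(ℂ, Cm n) 𝓘(ℂ, Cm n) ω j)
    (hji : ∀ z, Function.Injective (mfderiv 𝓘(ℂ, Cm n) 𝓘(ℂ, Cm n) j z)) {f : Z → Y}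
    (hf : ContMDiff 𝓘(ℂ, Cm n) 𝓘(ℂ, Cm p) ω f) {i : F → Z}
    (hi : H713.IsSmoothFibre (Cm n) (Cm p) (Cm d) f i)
    (hd : Dense {z : Z | ∀ v : Cm n,
      (mfderiv 𝓘(ℂ, Cm n) 𝓘(ℂ, Cm n) j z : Cm n →L[ℂ] Cm n) v ∈
        KH (θ (chartAt (Cm n) (j z)) (chartAt (Cm n) (j z) (j z))) →
      (mfderiv 𝓘(ℂ, Cm n) 𝓘(ℂ, Cm p) f z : Cm n →L[ℂ] Cm p) v = 0})
    {e : Chart d F} {t : F} (ht : At e t) :
    (pullM (fun t => j (i t)) θ e (e t)).rank + p ≤ ν := by
  rw [← pullM_comp (m := n) hθ hj hi.hol ht]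
  have hinv : ∀ {c : Chart n Z} {z : Z}, At c z →
      ∃ L, L * jacF j c (chartAt (Cm n) (j z)) z = 1 := by
    intro c z hc
    have h1 := Vale.Agent.P281.H167.SA.immersive_of_mfderiv hj hji
    refine exists_left fun u u' huu => ?_
    have h2 : jacF j c (chartAt (Cm n) (j z)) z *ᵥ (u - u') = 0 := by
      rw [Matrix.mulVec_sub]
      exact sub_eq_zero.2 huu
    exact sub_eq_zero.1 (h1 c _ z hc (at_chartAt (j z)) _ h2)
  refine rank_fibre hn (isForm_pullM hθ hj) (fun e x he a b => pullM_cont hθ hc hj he a b) ?_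
    hf hi (hd.mono ?_) ht
  · intro c z hcz
    rw [pullM_eq hθ (hj.contMDiffAt (x := z)) hcz (at_chartAt (j z))]
    refine (Matrix.rank_mul_le_left _ _).trans ((Matrix.rank_mul_le_right _ _).trans ?_)
    exact hν _ _ (at_chartAt (j z))
  · intro z hz v hv
    refine hz v ?_
    have hcz := at_chartAt (n := n) z
    rw [pullM_eq hθ (hj.contMDiffAt (x := z)) hcz (at_chartAt (j z))] at hv
    obtain ⟨L, hL⟩ := hinv hcz
    rw [mfderiv_eq_jacF (hj.contMDiffAt (x := z))]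
    set A := jacF j (chartAt (Cm n) z) (chartAt (Cm n) (j z)) z with hA
    set T := θ (chartAt (Cm n) (j z)) (chartAt (Cm n) (j z) (j z)) with hT
    change Tᵀ *ᵥ (A *ᵥ v) = 0
    have h1 : (Aᵀ * T * A.map (starRingEnd ℂ))ᵀ *ᵥ v = 0 := hv
    rw [Matrix.transpose_mul, Matrix.transpose_mul, Matrix.transpose_transpose,
      ← Matrix.mulVec_mulVec, ← Matrix.mulVec_mulVec] at h1
    have h3 : A * L = 1 := mul_eq_one_comm.1 hL
    have h4 : (L.map (starRingEnd ℂ))ᵀ * (A.map (starRingEnd ℂ))ᵀ = 1 := by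
      rw [← Matrix.transpose_mul, ← mcj_rect_mul, h3]
      simp
    have h5 := congrArg ((L.map (starRingEnd ℂ))ᵀ *ᵥ ·) h1
    simp only [Matrix.mulVec_zero] at h5
    rw [Matrix.mulVec_mulVec, h4, Matrix.one_mulVec] at h5
    exact h5

end Vale.Agent.P281.H949.MFS
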