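import Vale.Agent.P281.H949.MFS.DG
import Vale.Agent.P281.H368.MFS.Iface

/-! P281, theorem MFS: the rows M-RK and M-DG. -/

open scoped Manifold ContDiff Matrix Topology ComplexOrder
open Set Filter Vale.Agent.P272.K Vale.Agent.P281.H716 Vale.Agent.P299.D Vale.Agent.P299.H956
open Vale.Agent.P281.H368.MFS

set_option linter.all false

noncomputable section

namespace Vale.Agent.P281.H949.MFS

variable {n p : ℕ} {X Z Y : Type} [TopologicalSpace X] [ChartedSpace (Cm n) X]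
  [IsManifold 𝓘(ℂ, Cm n) ω X] [TopologicalSpace Z] [ChartedSpace (Cm n) Z]
  [IsManifold 𝓘(ℂ, Cm n) ω Z] [TopologicalSpace Y] [ChartedSpace (Cm p) Y]
  [IsManifold 𝓘(ℂ, Cm p) ω Y]

/-- `KerAt` in a chart -/
lemma kerAt_chart {j : Z → X} (hj : ContMDiff 𝓘(ℂ, Cm n) 𝓘(ℂ, Cm n) ω j) {f : Z → Y}
    {θ : Chart n X → Cm n → Matrix (Fin n) (Fin n) ℂ} (hθ : IsForm θ) {z : Z}
    (hz : KerAt p θ j f z) {e : Chart n X} (he : At e (j z)) {ξ : Cm n}
    (h : InKer (θ e (e (j z))) (Vale.Agent.P281.dV (Cm n) (fun w => e (j w)) z ξ)) :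
    Vale.Agent.P281.dM (Cm n) (Cm p) f z ξ = 0 := by
  have hjz := hj.contMDiffAt (x := z)
  refine hz ξ ?_
  rw [mfderiv_eq_jacF hjz]
  rw [dV_chart hjz he, jacF_right hjz (at_chartAt (n := n) z) (at_chartAt (n := n) (j z)) he,
    ← Matrix.mulVec_mulVec] at h
  exact (inKer_change hθ (at_chartAt (n := n) (j z)) he).1 h

/-- **KerLimit**, in the form of the interface. -/
theorem kerAt_limit {j : Z → X} (hj : J.IsBigOpen (Cm n) j) {f : Z → Y}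
    (hf : ContMDiff 𝓘(ℂ, Cm n) 𝓘(ℂ, Cm p) ω f)
    {θ : Chart n X → Cm n → Matrix (Fin n) (Fin n) ℂ} (hθ : IsSemiPos θ)
    (hd : Dense {z : Z | KerAt p θ j f z}) {ν : ℕ}
    (hν : ∀ e x, At e x → (θ e (e x)).rank ≤ ν) (z : Z) : ∃ K : Submodule ℂ (Cm n),
      n ≤ ν + Module.finrank ℂ K ∧ ∀ w ∈ K,
        (mfderiv 𝓘(ℂ, Cm n) 𝓘(ℂ, Cm p) f z w : Cm p) = 0 ∧
        InKer (θ (chartAt (Cm n) (j z)) (chartAt (Cm n) (j z) (j z)))
          (mfderiv 𝓘(ℂ, Cm n) 𝓘(ℂ, Cm n) j z w : Cm n) := by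
  obtain ⟨K, hK1, hK2⟩ := kerLimit hθ.change
    (fun e x h i j => (hθ.smooth e x h i j).continuousAt) hν hj.1 hf
    (hd.mono fun z hz e he ξ h => kerAt_chart hj.1 hθ.change hz he h) z
  refine ⟨K, hK1, fun w hw => ⟨(hK2 w hw).1, ?_⟩⟩
  have h1 := mfderiv_eq_jacF (hj.1.contMDiffAt (x := z)) w
  rw [h1]
  exact (hK2 w hw).2

/-- **Row M-RK**: the rank of the restriction of `θ` to a smooth fibre. -/
theorem rankPartM {d : ℕ} (hn : n = p + d) {F : Type} [TopologicalSpace F] [ChartedSpace (Cm d) F]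
    [IsManifold 𝓘(ℂ, Cm d) ω F] {j : Z → X} (hj : J.IsBigOpen (Cm n) j) {f : Z → Y}
    (hf : ContMDiff 𝓘(ℂ, Cm n) 𝓘(ℂ, Cm p) ω f) {i : F → Z}
    (hi : H713.IsSmoothFibre (Cm n) (Cm p) (Cm d) f i)
    {θ : Chart n X → Cm n → Matrix (Fin n) (Fin n) ℂ} (hθ : IsSemiPos θ)
    (hd : Dense {z : Z | KerAt p θ j f z}) {ν : ℕ}
    (hν : ∀ e x, At e x → (θ e (e x)).rank ≤ ν) {e : Chart d F} {t : F} (ht : At e t) :
    (pull (fun t => j (i t)) θ e (e t)).rank + p ≤ ν := by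
  refine rank_fibreX hn hθ.change
    (fun e x h i j => (hθ.smooth e x h i j).continuousAt) hν hj.1 hj.2.2.1 hf hi (hd.mono ?_) ht
  intro z hz v hv
  exact hz v (inKer_iff.2 hv)

/-- **Row M-DG.** -/
theorem conPartM : ConPartM := by
  intro n p d hn X Z Y F _ _ _ _ _ _ _ _ _ _ _ _ j hj f hf i hi α θ hα hθ hd ν hν g s hg hs
  exact con_fibre hn hα hθ hν hj.1 hj.2.2.1 hf hi
    (hd.mono fun z hz e he ξ h => kerAt_chart hj.1 hθ.change hz he h) hg hs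

end Vale.Agent.P281.H949.MFS
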