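import Vale.Agent.P281.H716.Lin

/-! P281, row M-RK: the rank of the restriction of a form to the fibres, linear algebra. -/

open scoped Matrix Topology
open Set Filter Vale.Agent.P272.K Vale.Agent.P281.H716

set_option linter.all false

noncomputable section

namespace Vale.Agent.P281.H949.MFS

variable {n p d : ℕ}

/-- The restriction of `H` to the kernel of `A` (with basis the columns of `W`), if the kernel of
`H` is contained in the kernel of `A`. -/
theorem rank_restrict (hn : n = p + d) {H : Matrix (Fin n) (Fin n) ℂ}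
    {A : Matrix (Fin p) (Fin n) ℂ} {W V : Matrix (Fin n) (Fin d) ℂ}
    (hA : Function.Surjective A.mulVec) (hW : Function.Injective W.mulVec) (hAW : A * W = 0)
    (hk : ∀ v ∈ KH H, A *ᵥ v = 0) : (Wᵀ * H * V).rank + p ≤ H.rank := by
  have h1 := finrank_KH H
  have h2 := finrank_KH (Wᵀ * H * V)
  -- the kernel of `A` is the image of `W`
  have hr : LinearMap.ker A.mulVecLin = LinearMap.range W.mulVecLin := by
    refine (Submodule.eq_of_le_of_finrank_eq ?_ ?_).symm
    · rintro _ ⟨u, rfl⟩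
      rw [LinearMap.mem_ker, Matrix.mulVecLin_apply, Matrix.mulVecLin_apply,
        Matrix.mulVec_mulVec, hAW, Matrix.zero_mulVec]
    · have h3 := LinearMap.finrank_range_add_finrank_ker A.mulVecLin
      have h4 : LinearMap.range A.mulVecLin = ⊤ := LinearMap.range_eq_top.2 hA
      have h5 := LinearMap.finrank_range_of_inj (f := W.mulVecLin) hW
      rw [h4, finrank_top, Module.finrank_fin_fun, Module.finrank_fin_fun] at h3
      rw [h5, Module.finrank_fin_fun]
      omega
  -- compare the kernels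
  have h6 : Module.finrank ℂ (KH H) ≤ Module.finrank ℂ (KH (Wᵀ * H * V)) := by
    have h7 : KH H ≤ (KH (Wᵀ * H * V)).map W.mulVecLin := by
      intro v hv
      have h8 : v ∈ LinearMap.range W.mulVecLin := by
        rw [← hr, LinearMap.mem_ker, Matrix.mulVecLin_apply]
        exact hk v hv
      obtain ⟨u, rfl⟩ := h8
      refine ⟨u, ?_, rfl⟩
      have hv' : Hᵀ *ᵥ (W *ᵥ u) = 0 := hv
      change (Wᵀ * H * V)ᵀ *ᵥ u = 0
      rw [Matrix.transpose_mul, Matrix.transpose_mul, Matrix.transpose_transpose,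
        ← Matrix.mulVec_mulVec, ← Matrix.mulVec_mulVec, hv', Matrix.mulVec_zero]
    exact (Submodule.finrank_mono h7).trans (Submodule.finrank_map_le _ _)
  omega

lemma cAt_mul {α : Type*} [TopologicalSpace α] {z₀ : α} {a b c : ℕ}
    {A : α → Matrix (Fin a) (Fin b) ℂ} {B : α → Matrix (Fin b) (Fin c) ℂ}
    (hA : ContinuousAt A z₀) (hB : ContinuousAt B z₀) : ContinuousAt (fun z => A z * B z) z₀ := by
  have h : Continuous fun q : Matrix (Fin a) (Fin b) ℂ × Matrix (Fin b) (Fin c) ℂ => q.1 * q.2 :=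
    continuous_fst.matrix_mul continuous_snd
  exact h.continuousAt.comp (hA.prodMk hB)

lemma surj_of_det {A : Matrix (Fin p) (Fin n) ℂ} {R : Matrix (Fin n) (Fin p) ℂ}
    (h : (A * R).det ≠ 0) : Function.Surjective A.mulVec := by
  intro y
  have hu : IsUnit (A * R).det := isUnit_iff_ne_zero.2 h
  refine ⟨R *ᵥ ((A * R)⁻¹ *ᵥ y), ?_⟩
  rw [Matrix.mulVec_mulVec, Matrix.mulVec_mulVec, Matrix.mul_nonsing_inv _ hu,
    Matrix.one_mulVec]

lemma inj_of_det {W : Matrix (Fin n) (Fin d) ℂ} {L : Matrix (Fin d) (Fin n) ℂ}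
    (h : (L * W).det ≠ 0) : Function.Injective W.mulVec := by
  intro u u' huu
  have hu : IsUnit (L * W).det := isUnit_iff_ne_zero.2 h
  have h1 : (L * W) *ᵥ u = (L * W) *ᵥ u' := by
    rw [← Matrix.mulVec_mulVec, ← Matrix.mulVec_mulVec]
    exact congrArg _ huu
  have h2 := congrArg ((L * W)⁻¹ *ᵥ ·) h1
  simpa only [Matrix.mulVec_mulVec, Matrix.nonsing_inv_mul _ hu, Matrix.one_mulVec] using h2

lemma exists_left {J : Matrix (Fin n) (Fin d) ℂ} (hJ : Function.Injective J.mulVec) :
    ∃ L : Matrix (Fin d) (Fin n) ℂ, L * J = 1 := by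
  obtain ⟨g, hg⟩ := J.mulVecLin.exists_leftInverse_of_injective (LinearMap.ker_eq_bot.2 hJ)
  refine ⟨LinearMap.toMatrix' g, ?_⟩
  have h1 := LinearMap.toMatrix'_comp g J.mulVecLin
  rw [hg, LinearMap.toMatrix'_id] at h1
  have h2 : LinearMap.toMatrix' J.mulVecLin = J := LinearMap.toMatrix'_toLin' J
  rw [h2] at h1
  exact h1.symm

/-- The rank of the restriction of `θ` to the fibres. -/
theorem rank_limit {α : Type*} [TopologicalSpace α] {z₀ : α} (hn : n = p + d)
    {θ : α → Matrix (Fin n) (Fin n) ℂ} {A : α → Matrix (Fin p) (Fin n) ℂ}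
    {J : Matrix (Fin n) (Fin d) ℂ} (hθ : ContinuousAt θ z₀) (hAc : ContinuousAt A z₀)
    (hA : Function.Surjective (A z₀).mulVec) (hJ : Function.Injective J.mulVec)
    (hAJ : A z₀ * J = 0) {ν : ℕ}
    (hf : ∃ᶠ z in 𝓝 z₀, (θ z).rank ≤ ν ∧ ∀ v ∈ KH (θ z), A z *ᵥ v = 0) :
    (Jᵀ * θ z₀ * J.map (starRingEnd ℂ)).rank + p ≤ ν := by
  -- a right inverse of `A z₀`, a left inverse of `J`
  obtain ⟨R, hR⟩ : ∃ R : Matrix (Fin n) (Fin p) ℂ, A z₀ * R = 1 :=
    Matrix.mulVec_surjective_iff_exists_right_inverse.1 hA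
  obtain ⟨L, hL⟩ := exists_left hJ
  set G : α → Matrix (Fin p) (Fin p) ℂ := fun z => A z * R with hG
  have hGc : ContinuousAt G z₀ := cAt_mul hAc continuousAt_const
  have hG0 : G z₀ = 1 := hR
  set W : α → Matrix (Fin n) (Fin d) ℂ :=
    fun z => (G z).det • J - R * ((G z).adjugate * (A z * J)) with hWd
  have hWc : ContinuousAt W z₀ := by
    have h1 : ContinuousAt (fun z => (G z).det) z₀ :=
      (continuous_id.matrix_det (A := fun M : Matrix (Fin p) (Fin p) ℂ => M)).continuousAt.comp hGc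
    have h2 : ContinuousAt (fun z => (G z).adjugate) z₀ :=
      (continuous_id.matrix_adjugate (A := fun M : Matrix (Fin p) (Fin p) ℂ => M)).continuousAt.comp
        hGc
    exact (h1.smul continuousAt_const).sub (cAt_mul continuousAt_const
      (cAt_mul h2 (cAt_mul hAc continuousAt_const)))
  have hW0 : W z₀ = J := by
    simp only [hWd, hG0, Matrix.det_one, one_smul, hAJ, Matrix.mul_zero, sub_zero]
  have hAW : ∀ z, A z * W z = 0 := by
    intro z
    simp only [hWd]
    rw [Matrix.mul_sub, Matrix.mul_smul, ← Matrix.mul_assoc (A z) R, ← Matrix.mul_assoc,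
      show A z * R = G z from rfl, Matrix.mul_adjugate, Matrix.smul_mul, Matrix.one_mul, sub_self]
  -- the pulled back form
  have hPc : ContinuousAt (fun z => (W z)ᵀ * θ z * (W z).map (starRingEnd ℂ)) z₀ := by
    refine cAt_mul (cAt_mul ?_ hθ) ?_
    · exact (continuous_id.matrix_transpose
        (A := fun M : Matrix (Fin n) (Fin d) ℂ => M)).continuousAt.comp hWc
    · exact (continuous_id.matrix_map Complex.continuous_conj
        (A := fun M : Matrix (Fin n) (Fin d) ℂ => M)).continuousAt.comp hWc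
  have h1 : ∀ᶠ z in 𝓝 z₀, (Jᵀ * θ z₀ * J.map (starRingEnd ℂ)).rank ≤
      ((W z)ᵀ * θ z * (W z).map (starRingEnd ℂ)).rank := by
    refine rank_lsc (θ := fun z => (W z)ᵀ * θ z * (W z).map (starRingEnd ℂ)) (fun i j => ?_) ?_
    · exact ((continuous_apply j).comp (continuous_apply i)).continuousAt.comp hPc
    · simp only [hW0]; exact le_rfl
  have h2 : ∀ᶠ z in 𝓝 z₀, (G z).det ≠ 0 := by
    have h1 : ContinuousAt (fun z => (G z).det) z₀ :=
      (continuous_id.matrix_det (A := fun M : Matrix (Fin p) (Fin p) ℂ => M)).continuousAt.comp hGc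
    refine h1.eventually_ne ?_
    rw [hG0, Matrix.det_one]; exact one_ne_zero
  have h3 : ∀ᶠ z in 𝓝 z₀, (L * W z).det ≠ 0 := by
    have h1 : ContinuousAt (fun z => (L * W z).det) z₀ :=
      (continuous_id.matrix_det (A := fun M : Matrix (Fin d) (Fin d) ℂ => M)).continuousAt.comp
        (cAt_mul continuousAt_const hWc)
    refine h1.eventually_ne ?_
    rw [hW0, hL, Matrix.det_one]; exact one_ne_zero
  obtain ⟨z, ⟨hz1, hz2⟩, hz3, hz4, hz5⟩ := (hf.and_eventually (h1.and (h2.and h3))).exists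
  have h4 := rank_restrict hn (V := (W z).map (starRingEnd ℂ)) (surj_of_det hz4) (inj_of_det hz5)
    (hAW z) hz2
  omega

end Vale.Agent.P281.H949.MFS
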